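import Vale.Agent.P166F.Chain.Tilt

/-!
Potentials of the spin recursion with their slopes: the class is closed under one level, comparisons
of slopes pass to the potentials, and levels of equal exponents merge.
-/

namespace Vale.Agent.P166F.Chain

open MeasureTheory ProbabilityTheory Filter
open Vale.Agent.P157 Vale.Agent.P166N
open scoped Topology

variable {U U' V u u' v F : ℝ → ℝ} {m m' s a b : ℝ}

/-- A potential of the spin recursion and its slope. -/
structure Nice (U u : ℝ → ℝ) : Prop where
  lip : RSB.Lip 1 U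
  meas : Measurable u
  evn : ∀ y, U (-y) = U y
  odd : ∀ y, u (-y) = -u y
  bd : ∀ y, |u y| ≤ 1
  lower : ∀ y h, h * u y ≤ U (y + h) - U y
  sec : ∀ y h, Real.exp (U (y + h) - U y) + Real.exp (U (y - h) - U y) ≤ 2 * Real.cosh h

lemma nice_logCosh : Nice (fun x => Real.log (Real.cosh x)) Real.tanh where
  lip := Low.lip_of_hasDerivAt (fun x => (Real.hasDerivAt_cosh x).log (Real.cosh_pos x).ne') fun x => by
    rw [← Real.tanh_eq_sinh_div_cosh]; exact (Real.abs_tanh_lt_one x).le
  meas := measurable_tanh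
  evn y := by rw [Real.cosh_neg]
  odd y := Real.tanh_neg y
  bd y := (Real.abs_tanh_lt_one y).le
  lower y h := by
    set t := Real.tanh y with ht
    have h1 := Real.abs_tanh_lt_one y
    rw [← ht, abs_lt] at h1
    have hc := convexOn_exp.2 (Set.mem_univ h) (Set.mem_univ (-h)) 
      (show 0 ≤ (1 + t) / 2 by linarith) (show 0 ≤ (1 - t) / 2 by linarith) (by ring)
    simp only [smul_eq_mul] at hc
    rw [show (1 + t) / 2 * h + (1 - t) / 2 * -h = h * t by ring] at hc
    have e : Real.cosh (y + h) =
        Real.cosh y * ((1 + t) / 2 * Real.exp h + (1 - t) / 2 * Real.exp (-h)) := by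
      rw [ht, Real.tanh_eq_sinh_div_cosh, Real.cosh_add, Real.cosh_eq h, Real.sinh_eq h]
      field_simp [(Real.cosh_pos y).ne']
      ring
    rw [← Real.log_div (Real.cosh_pos _).ne' (Real.cosh_pos _).ne',
      Real.le_log_iff_exp_le (div_pos (Real.cosh_pos _) (Real.cosh_pos _)), e,
      mul_div_cancel_left₀ _ (Real.cosh_pos y).ne']
    exact hc
  sec y h := by
    rw [Real.exp_sub, Real.exp_sub, Real.exp_log (Real.cosh_pos _), Real.exp_log (Real.cosh_pos _),
      Real.exp_log (Real.cosh_pos _), ← add_div, div_le_iff₀ (Real.cosh_pos _), Real.cosh_add,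
      Real.cosh_sub]
    linarith

namespace Nice

lemma mono (hn : Nice U u) : Monotone u := fun x y hxy => by
  rcases eq_or_lt_of_le hxy with rfl | hlt
  · exact le_rfl
  have h1 := hn.lower x (y - x)
  have h2 := hn.lower y (x - y)
  rw [add_sub_cancel] at h1 h2
  nlinarith

lemma zero (hn : Nice U u) : u 0 = 0 := by
  have := hn.odd 0
  rw [neg_zero] at this
  linarith

lemma nonneg (hn : Nice U u) {y : ℝ} (hy : 0 ≤ y) : 0 ≤ u y := hn.zero ▸ hn.mono hy

lemma upper (hn : Nice U u) (y h : ℝ) : U (y + h) - U y ≤ h * u y + h ^ 2 := by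
  set A := U (y + h) - U y
  set B := U (y - h) - U y
  have h1 := hn.sec y h
  have h2 := Real.cosh_le_exp_half_sq h
  have h3 : 2 * Real.exp ((A + B) / 2) ≤ Real.exp A + Real.exp B := by
    have hA : Real.exp A = Real.exp (A / 2) * Real.exp (A / 2) := by rw [← Real.exp_add]; ring_nf
    have hB : Real.exp B = Real.exp (B / 2) * Real.exp (B / 2) := by rw [← Real.exp_add]; ring_nf
    rw [hA, hB, add_div, Real.exp_add]
    nlinarith [sq_nonneg (Real.exp (A / 2) - Real.exp (B / 2))]
  have h4 : (A + B) / 2 ≤ h ^ 2 / 2 := Real.exp_le_exp.1 (by linarith)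
  have h5 := hn.lower y (-h)
  rw [← sub_eq_add_neg] at h5
  linarith

lemma slope_lip (hn : Nice U u) (x y : ℝ) : |u y - u x| ≤ 2 * |y - x| := by
  have key : ∀ x y, x ≤ y → |u y - u x| ≤ 2 * |y - x| := fun x y hxy => by
    rcases eq_or_lt_of_le hxy with rfl | hlt
    · simp
    have h1 := hn.upper x (y - x)
    have h2 := hn.upper y (x - y)
    rw [add_sub_cancel] at h1 h2
    rw [abs_of_nonneg (sub_nonneg.2 (hn.mono hxy)), abs_of_nonneg (sub_nonneg.2 hxy)]
    nlinarith
  rcases le_total x y with h | h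
  · exact key x y h
  · rw [abs_sub_comm (u y), abs_sub_comm y]; exact key y x h

lemma einc (hn : Nice U u) : EInc U := by
  have e : ∀ z, U z = U |z| := fun z => by
    rcases abs_choice z with h | h <;> rw [h]
    exact (hn.evn z).symm
  intro x y hxy
  rw [e x, e y]
  have h := hn.lower |x| (|y| - |x|)
  rw [add_sub_cancel] at h
  nlinarith [hn.nonneg (abs_nonneg x)]

lemma einc_sq (hn : Nice U u) : EInc fun y => u y ^ 2 := by
  have e : ∀ z, u z ^ 2 = u |z| ^ 2 := fun z => by
    rcases abs_choice z with h | h <;> rw [h]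
    rw [hn.odd, neg_sq]
  intro x y hxy
  simp only [e x, e y]
  exact pow_le_pow_left₀ (hn.nonneg (abs_nonneg _)) (hn.mono hxy) 2

lemma sq_le_one (hn : Nice U u) (y : ℝ) : |u y ^ 2| ≤ 1 := by
  rw [abs_pow]; exact pow_le_one₀ (abs_nonneg _) (hn.bd y)

lemma einc_mul (hn : Nice U u) {c : ℝ} (hc : 0 ≤ c) : EInc fun x => c * U x :=
  fun x y h => mul_le_mul_of_nonneg_left (hn.einc x y h) hc

/-- Larger slopes give a larger increase. -/
lemma einc_sub (hn : Nice U u) (hn' : Nice U' u') (h : ∀ y, 0 ≤ y → u y ≤ u' y) :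
    EInc fun x => U' x - U x := by
  have step : ∀ (n : ℕ) (x d : ℝ), 0 ≤ x → 0 ≤ d →
      U' x - U x - 2 * n * d ^ 2 ≤ U' (x + n * d) - U (x + n * d) := by
    intro n
    induction n with
    | zero => intro x d _ _; simp
    | succ n ih =>
      intro x d hx hd
      have h1 := ih (x + d) d (by linarith) hd
      have h2 := hn'.lower x d
      have h3 := hn.upper x d
      have h4 := mul_le_mul_of_nonneg_left (h x hx) hd
      rw [show x + ((n + 1 : ℕ) : ℝ) * d = x + d + n * d by push_cast; ring]
      push_cast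
      nlinarith [sq_nonneg d]
  have main : ∀ x y, 0 ≤ x → x ≤ y → U' x - U x ≤ U' y - U y := by
    intro x y hx hxy
    have hlim : Tendsto (fun n : ℕ => U' x - U x - 2 * (y - x) ^ 2 / ((n : ℝ) + 1)) atTop
        (𝓝 (U' x - U x - 0)) := by
      have h := (tendsto_one_div_add_atTop_nhds_zero_nat.const_mul (2 * (y - x) ^ 2))
      simp only [mul_zero, mul_one_div] at h
      exact tendsto_const_nhds.sub h
    rw [sub_zero] at hlim
    refine le_of_tendsto hlim (Eventually.of_forall fun n => ?_)
    have hn1 : (0 : ℝ) < (n : ℝ) + 1 := by positivity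
    have h1 := step (n + 1) x ((y - x) / ((n : ℝ) + 1)) hx (div_nonneg (sub_nonneg.2 hxy) hn1.le)
    push_cast at h1
    rw [mul_div_cancel₀ _ hn1.ne', add_sub_cancel] at h1
    refine le_trans (le_of_eq ?_) h1
    field_simp
  have e : ∀ z, U' z - U z = U' |z| - U |z| := fun z => by
    rcases abs_choice z with h | h <;> rw [h]
    rw [hn.evn, hn'.evn]
  intro x y hxy
  simp only [e x, e y]
  exact main _ _ (abs_nonneg _) hxy

end Nice

/-! ### One level -/

lemma lmom_zero (X : ℝ → ℝ) : lmom 0 X = ∫ z, X z ∂gaussianReal 0 1 := if_pos rfl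

lemma lmom_sub_le {X Y : ℝ → ℝ} (hm : 0 ≤ m) (hX : RSB.Wgt (gaussianReal 0 1) m X)
    (hY : RSB.Wgt (gaussianReal 0 1) m Y) (hXi : Integrable X (gaussianReal 0 1))
    (hYi : Integrable Y (gaussianReal 0 1))
    (hi : Integrable (fun z => Real.exp (m * X z) * (X z - Y z)) (gaussianReal 0 1)) :
    lmom m X - lmom m Y ≤ RSB.tilt (gaussianReal 0 1) m X fun z => X z - Y z := by
  rcases eq_or_lt_of_le hm with rfl | hm0
  · simp only [lmom_zero, RSB.tilt, zero_mul, Real.exp_zero, integral_const, probReal_univ,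
      inv_one, smul_eq_mul, one_mul, mul_one]
    rw [integral_sub hXi hYi]
  · simp only [lmom, if_neg hm0.ne']
    exact lexp_sub_le hm0 hX hY hi

lemma int_shift (hU : RSB.Lip 1 U) (y r : ℝ) :
    Integrable (fun z => U (y + r * z)) (gaussianReal 0 1) := Low.lip_integrable hU y r

lemma lmom_exp_le {X Y : ℝ → ℝ} (hm : 0 ≤ m) (hm1 : m ≤ 1) (hX : RSB.Wgt (gaussianReal 0 1) m X)
    (hY : RSB.Wgt (gaussianReal 0 1) m Y) (hXi : Integrable X (gaussianReal 0 1))
    (hYi : Integrable Y (gaussianReal 0 1))
    (hi : Integrable (fun z => Real.exp (m * Y z) * Real.exp (X z - Y z)) (gaussianReal 0 1)) :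
    Real.exp (lmom m X - lmom m Y) ≤
      RSB.tilt (gaussianReal 0 1) m Y fun z => Real.exp (X z - Y z) := by
  rcases eq_or_lt_of_le hm with rfl | hm0
  · simp only [lmom_zero, RSB.tilt, zero_mul, Real.exp_zero, integral_const, probReal_univ,
      inv_one, smul_eq_mul, one_mul, mul_one] at hi ⊢
    rw [← integral_sub hXi hYi]
    exact convexOn_exp.map_integral_le Real.continuous_exp.continuousOn isClosed_univ
      (Eventually.of_forall fun _ => Set.mem_univ _) (hXi.sub hYi) hi
  · simp only [lmom, if_neg hm0.ne']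
    set c := RSB.tilt (gaussianReal 0 1) m Y fun z => Real.exp (X z - Y z) with hc
    have hce : c * ∫ z, Real.exp (m * Y z) ∂gaussianReal 0 1 =
        ∫ z, Real.exp (m * Y z) * Real.exp (X z - Y z) ∂gaussianReal 0 1 := by
      rw [hc, RSB.tilt]
      simp only [smul_eq_mul]
      rw [mul_comm (∫ z, Real.exp (m * Y z) ∂gaussianReal 0 1)⁻¹, mul_assoc,
        inv_mul_cancel₀ hY.pos.ne', mul_one]
    have hcpos : 0 < c := by
      have h : 0 < ∫ z, Real.exp (m * Y z) * Real.exp (X z - Y z) ∂gaussianReal 0 1 := by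
        have e : ∀ z, Real.exp (m * Y z) * Real.exp (X z - Y z) = Real.exp (m * Y z + (X z - Y z)) :=
          fun z => (Real.exp_add _ _).symm
        simp only [e] at hi ⊢
        exact integral_exp_pos hi
      rw [← hce] at h
      exact (pos_iff_pos_of_mul_pos h).2 hY.pos
    set l := Real.log c with hl
    have hpt : ∀ z, Real.exp (m * X z) ≤ Real.exp (m * l) * (1 - m) * Real.exp (m * Y z) +
        Real.exp (m * l) * m / c * (Real.exp (m * Y z) * Real.exp (X z - Y z)) := fun z => by
      have h := convexOn_exp.2 (Set.mem_univ (0 : ℝ)) (Set.mem_univ (X z - Y z - l))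
        (by linarith : 0 ≤ 1 - m) hm0.le (by ring)
      simp only [smul_eq_mul, mul_zero, zero_add, Real.exp_zero, mul_one] at h
      have h' := mul_le_mul_of_nonneg_left h
        (mul_pos (Real.exp_pos (m * l)) (Real.exp_pos (m * Y z))).le
      rw [← Real.exp_add, ← Real.exp_add, show m * l + m * Y z + m * (X z - Y z - l) = m * X z by ring,
        Real.exp_sub (X z - Y z) l, hl, Real.exp_log hcpos] at h'
      refine h'.trans (le_of_eq ?_)
      rw [← hl, Real.exp_add]
      ring
    have hint := integral_mono hX.int ((hY.int.const_mul _).add (hi.const_mul _)) hpt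
    simp only [Pi.add_apply] at hint
    rw [integral_add (hY.int.const_mul _) (hi.const_mul _), integral_const_mul, integral_const_mul,
      ← hce] at hint
    have hint2 : ∫ z, Real.exp (m * X z) ∂gaussianReal 0 1 ≤
        Real.exp (m * l) * ∫ z, Real.exp (m * Y z) ∂gaussianReal 0 1 := by
      refine hint.trans (le_of_eq ?_)
      field_simp
      ring
    have h3 := Real.log_le_log hX.pos hint2
    rw [Real.log_mul (Real.exp_pos _).ne' hY.pos.ne', Real.log_exp] at h3
    have h4 : RSB.lexp (gaussianReal 0 1) m X - RSB.lexp (gaussianReal 0 1) m Y ≤ l := by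
      rw [RSB.lexp, RSB.lexp, ← sub_div, div_le_iff₀ hm0]
      linarith
    exact (Real.exp_le_exp.2 h4).trans_eq (by rw [hl, Real.exp_log hcpos])

lemma lip_lstep (hU : RSB.Lip 1 U) (hm : 0 ≤ m) (s : ℝ) : RSB.Lip 1 (lstep m s U) := by
  rcases eq_or_lt_of_le hm with rfl | hm0
  · refine ⟨?_, zero_le_one, fun x y => ?_⟩
    · show Measurable fun y => lmom 0 fun z => U (y + Real.sqrt s * z)
      simp only [lmom_zero]
      exact (StronglyMeasurable.integral_prod_right' (ν := gaussianReal 0 1)
        (hU.meas.comp (by fun_prop : Measurable fun p : ℝ × ℝ => p.1 + Real.sqrt s * p.2)).stronglyMeasurable).measurable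
    · simp only [lstep, lmom_zero]
      rw [← integral_sub (int_shift hU _ _) (int_shift hU _ _), ← Real.norm_eq_abs]
      refine (norm_integral_le_of_norm_le_const (C := 1 * ‖y‖) (Eventually.of_forall fun z => ?_)).trans
        (by simp)
      rw [Real.norm_eq_abs, add_right_comm]
      exact hU.lip _ y
  · have e : lstep m s U = fun y => RSB.lexp (gaussianReal 0 1) m fun z => U (y + Real.sqrt s * z) :=
      funext fun y => by simp only [lstep, lmom, if_neg hm0.ne']
    rw [e]
    exact Low.lip_level hU hm0 s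

lemma lmom_neg {X : ℝ → ℝ} (m : ℝ) : lmom m (fun z => X (-z)) = lmom m X := by
  unfold lmom RSB.lexp
  split_ifs
  · exact integral_gauss_neg X
  · rw [integral_gauss_neg fun z => Real.exp (m * X z)]

lemma ltilt_reflect (hUe : ∀ y, U (-y) = U y) (m s : ℝ) (y : ℝ) {σ : ℝ}
    (hF : ∀ y, F (-y) = σ * F y) : ltilt m s U F (-y) = σ * ltilt m s U F y := by
  rw [ltilt_eq, ltilt_eq, ← integral_gauss_neg (fun z => Real.exp (m * U (-y + Real.sqrt s * z)) *
    F (-y + Real.sqrt s * z)), ← integral_gauss_neg (fun z => Real.exp (m * U (-y + Real.sqrt s * z))),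
    mul_div_assoc', ← integral_const_mul]
  have e : ∀ z, -y + Real.sqrt s * -z = -(y + Real.sqrt s * z) := fun z => by ring
  simp only [e, hUe, hF, mul_left_comm σ]

/-- The class is closed under one level. -/
theorem Nice.step (hn : Nice U u) (hm : 0 ≤ m) (hm1 : m ≤ 1) (s : ℝ) :
    Nice (lstep m s U) (ltilt m s U u) where
  lip := lip_lstep hn.lip hm s
  meas := measurable_ltilt hn.lip hn.meas m s
  evn y := by
    rw [lstep, lstep, ← lmom_neg (X := fun z => U (-y + Real.sqrt s * z))]
    simp only [show ∀ z, -y + Real.sqrt s * -z = -(y + Real.sqrt s * z) from fun z => by ring, hn.evn]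
  odd y := by
    rw [ltilt_reflect hn.evn m s y (σ := -1) fun y => by rw [hn.odd, neg_one_mul], neg_one_mul]
  bd y := abs_ltilt_le hn.lip hn.bd m s y
  lower y h := by
    have hd : ∀ z, |U (y + Real.sqrt s * z) - U (y + h + Real.sqrt s * z)| ≤ |h| := fun z => by
      have := hn.lip.lip (y + Real.sqrt s * z) h
      rwa [Real.norm_eq_abs, one_mul, abs_sub_comm, add_right_comm] at this
    have hmd : Measurable fun z => U (y + Real.sqrt s * z) - U (y + h + Real.sqrt s * z) :=
      (hn.lip.meas.comp (by fun_prop)).sub (hn.lip.meas.comp (by fun_prop))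
    have h1 := lmom_sub_le (X := fun z => U (y + Real.sqrt s * z))
      (Y := fun z => U (y + h + Real.sqrt s * z)) hm (wgt_step hn.lip m y s) (wgt_step hn.lip m _ s)
      (int_shift hn.lip _ _) (int_shift hn.lip _ _) (int_exp_mul hn.lip hmd hd m _ y)
    have h2 : RSB.tilt (gaussianReal 0 1) m (fun z => U (y + Real.sqrt s * z))
        (fun z => U (y + Real.sqrt s * z) - U (y + h + Real.sqrt s * z)) ≤ -h * ltilt m s U u y := by
      rw [ltilt, ← RSB.tilt_const_mul]
      refine RSB.tilt_mono (wgt_step hn.lip m y s) (int_exp_mul hn.lip hmd hd m _ y)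
        (int_exp_mul hn.lip ((hn.meas.comp (by fun_prop)).const_mul _) (C := |h|) (fun z => ?_) m _ y)
        fun z => ?_
      · rw [abs_mul, abs_neg]; exact mul_le_of_le_one_right (abs_nonneg h) (hn.bd _)
      · have := hn.lower (y + Real.sqrt s * z) h
        rw [add_right_comm] at this
        linarith
    simp only [lstep]
    linarith
  sec y h := by
    have hint : ∀ g, Integrable (fun z => Real.exp (m * U (y + Real.sqrt s * z)) *
        Real.exp (U (y + g + Real.sqrt s * z) - U (y + Real.sqrt s * z))) (gaussianReal 0 1) := fun g => by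
      refine int_exp_mul hn.lip ((hn.lip.meas.comp (by fun_prop)).sub (hn.lip.meas.comp (by fun_prop))).exp
        (C := Real.exp |g|) (fun z => ?_) m _ y
      rw [Real.abs_exp, Real.exp_le_exp]
      simp only [Pi.sub_apply, Function.comp_apply]
      rw [add_right_comm]
      have := hn.lip.lip (y + Real.sqrt s * z) g
      rw [Real.norm_eq_abs, one_mul] at this
      exact (le_abs_self _).trans this
    have k : ∀ g, Real.exp (lstep m s U (y + g) - lstep m s U y) ≤
        RSB.tilt (gaussianReal 0 1) m (fun z => U (y + Real.sqrt s * z))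
          fun z => Real.exp (U (y + g + Real.sqrt s * z) - U (y + Real.sqrt s * z)) := fun g =>
      lmom_exp_le hm hm1 (wgt_step hn.lip m _ s) (wgt_step hn.lip m y s) (int_shift hn.lip _ _)
        (int_shift hn.lip _ _) (hint g)
    have w := wgt_step hn.lip m y s
    rw [sub_eq_add_neg y h]
    refine (add_le_add (k h) (k (-h))).trans ?_
    rw [← RSB.tilt_add (by simpa [smul_eq_mul] using hint h) (by simpa [smul_eq_mul] using hint (-h)),
      ← RSB.tilt_const w (2 * Real.cosh h)]
    refine RSB.tilt_mono w ?_ (w.int.mul_const _) fun z => ?_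
    · simpa [mul_add] using (hint h).fun_add (hint (-h))
    · have := hn.sec (y + Real.sqrt s * z) h
      rw [add_right_comm, show y + Real.sqrt s * z - h = y + -h + Real.sqrt s * z by ring] at this
      exact this

/-! ### Merging -/

lemma lstep_merge (hU : RSB.Lip 1 U) (hm : 0 ≤ m) (ha : 0 ≤ a) (hb : 0 ≤ b) (x : ℝ) :
    lstep m a (lstep m b U) x = lstep m (a + b) U x := by
  rcases eq_or_lt_of_le hm with rfl | hm0
  · simp only [lstep, lmom_zero]
    have h := (Low.gauss_merge (H := fun u => U (x + u)) (hU.meas.comp (measurable_const_add x))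
      (show Real.sqrt a ^ 2 + Real.sqrt b ^ 2 = Real.sqrt (a + b) ^ 2 by
        rw [Real.sq_sqrt ha, Real.sq_sqrt hb, Real.sq_sqrt (add_nonneg ha hb)]) (int_shift hU x _)).2
    simp only [← add_assoc] at h
    exact h
  · have e : ∀ (s : ℝ) (W : ℝ → ℝ), lstep m s W = levelStep W m s := fun s W =>
      funext fun y => by simp only [lstep, lmom, if_neg hm0.ne', levelStep]
    rw [e, e, e]
    exact levelStep_merge hU hm0 ha hb x

lemma exp_mul_lstep (hU : RSB.Lip 1 U) (m b y : ℝ) :
    Real.exp (m * lstep m b U y) = ∫ z, Real.exp (m * U (y + Real.sqrt b * z)) ∂gaussianReal 0 1 := by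
  rcases eq_or_ne m 0 with rfl | hm0
  · simp
  · simp only [lstep, lmom, if_neg hm0, RSB.lexp]
    rw [mul_div_cancel₀ _ hm0, Real.exp_log (wgt_step hU m y b).pos]

lemma ltilt_merge (hU : RSB.Lip 1 U) (hF : Measurable F) {C : ℝ} (hC : ∀ z, |F z| ≤ C) (ha : 0 ≤ a)
    (hb : 0 ≤ b) (m x : ℝ) :
    ltilt m a (lstep m b U) (ltilt m b U F) x = ltilt m (a + b) U F x := by
  have hsq : Real.sqrt a ^ 2 + Real.sqrt b ^ 2 = Real.sqrt (a + b) ^ 2 := by
    rw [Real.sq_sqrt ha, Real.sq_sqrt hb, Real.sq_sqrt (add_nonneg ha hb)]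
  have e : ∀ y, Real.exp (m * lstep m b U y) * ltilt m b U F y =
      ∫ z, Real.exp (m * U (y + Real.sqrt b * z)) * F (y + Real.sqrt b * z) ∂gaussianReal 0 1 := fun y => by
    rw [exp_mul_lstep hU, ltilt_eq, mul_div_cancel₀ _ (wgt_step hU m y b).pos.ne']
  have h1 := (Low.gauss_merge (H := fun u => Real.exp (m * U (x + u)) * F (x + u))
    (((hU.meas.comp (measurable_const_add x)).const_mul m).exp.mul (hF.comp (measurable_const_add x)))
    hsq (int_step hU hF hC m x _)).2
  have h2 := (Low.gauss_merge (H := fun u => Real.exp (m * U (x + u)))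
    ((hU.meas.comp (measurable_const_add x)).const_mul m).exp hsq (wgt_step hU m x _).int).2
  simp only [← add_assoc] at h1 h2
  rw [ltilt_eq, ltilt_eq]
  simp only [e]
  simp only [exp_mul_lstep hU]
  rw [h1, h2]

end Vale.Agent.P166F.Chain
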