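import Vale.Agent.P166F.Chain.Level

/-!
Chains of levels given by exponents and cumulative variances: raising one cumulative variance lowers
the slopes and the averaged squared slopes at all other levels.
-/

namespace Vale.Agent.P166F.Chain

open MeasureTheory ProbabilityTheory
open Vale.Agent.P157 Vale.Agent.P166N

variable {U U' V u F F' : ℝ → ℝ} {ms : List ℝ} {m s : ℝ}

/-- The potential of the chain with exponents `ms` and cumulative variances `Q`. -/
noncomputable def cPot : List ℝ → (ℕ → ℝ) → ℝ → ℝ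
  | [], _ => fun x => Real.log (Real.cosh x)
  | m :: ms, Q => lstep m (Q 1 - Q 0) (cPot ms fun k => Q (k + 1))

/-- Its slope. -/
noncomputable def cSlope : List ℝ → (ℕ → ℝ) → ℝ → ℝ
  | [], _ => Real.tanh
  | m :: ms, Q => ltilt m (Q 1 - Q 0) (cPot ms fun k => Q (k + 1)) (cSlope ms fun k => Q (k + 1))

/-- The squared slope at a depth, averaged over the outer levels with their tilts. -/
noncomputable def cSq : List ℝ → (ℕ → ℝ) → ℕ → ℝ → ℝ
  | ms, Q, 0 => fun y => cSlope ms Q y ^ 2
  | [], _, _ + 1 => fun _ => 0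
  | m :: ms, Q, j + 1 =>
      ltilt m (Q 1 - Q 0) (cPot ms fun k => Q (k + 1)) (cSq ms (fun k => Q (k + 1)) j)

/-- Exponents in the unit interval. -/
def UnitExps (ms : List ℝ) : Prop := ∀ m ∈ ms, 0 ≤ m ∧ m ≤ 1

lemma UnitExps.tail {ms : List ℝ} (h : UnitExps (m :: ms)) : UnitExps ms :=
  fun p hp => h p (List.mem_cons_of_mem _ hp)

lemma cSq_zero (ms : List ℝ) (Q : ℕ → ℝ) : cSq ms Q 0 = fun y => cSlope ms Q y ^ 2 := by
  cases ms <;> rfl

lemma nice_chain : ∀ (ms : List ℝ) (Q : ℕ → ℝ), UnitExps ms → Nice (cPot ms Q) (cSlope ms Q)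
  | [], _, _ => nice_logCosh
  | m :: ms, _, h => (nice_chain ms _ h.tail).step (h m (List.mem_cons_self ..)).1
      (h m (List.mem_cons_self ..)).2 _

lemma cSq_props : ∀ (ms : List ℝ) (Q : ℕ → ℝ) (j : ℕ), UnitExps ms →
    Measurable (cSq ms Q j) ∧ (∀ y, |cSq ms Q j y| ≤ 1) ∧ EInc (cSq ms Q j)
  | ms, Q, 0, h => by
    rw [cSq_zero]
    have hn := nice_chain ms Q h
    exact ⟨hn.meas.pow_const 2, hn.sq_le_one, hn.einc_sq⟩
  | [], _, _ + 1, _ => ⟨measurable_const, fun _ => by simp [cSq], fun _ _ _ => le_rfl⟩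
  | m :: ms, Q, j + 1, h => by
    obtain ⟨hme, hb, hi⟩ := cSq_props ms (fun k => Q (k + 1)) j h.tail
    have hn := nice_chain ms (fun k => Q (k + 1)) h.tail
    exact ⟨measurable_ltilt hn.lip hme m _, fun y => abs_ltilt_le hn.lip hb m _ y, fun x y hxy =>
      tilt_le_even hn.lip hn.lip hn.evn hn.evn (fun _ _ _ => by simp) hme hme hb hb hi hi.even
        (fun _ => le_rfl) _ hxy⟩

lemma cSq_nonneg : ∀ (ms : List ℝ) (Q : ℕ → ℝ) (j : ℕ), UnitExps ms → ∀ y, 0 ≤ cSq ms Q j y
  | ms, Q, 0, _, y => by rw [cSq_zero]; positivity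
  | [], _, _ + 1, _, _ => le_rfl
  | m :: ms, Q, j + 1, h, y => by
    obtain ⟨hme, hb, -⟩ := cSq_props ms (fun k => Q (k + 1)) j h.tail
    have hn := nice_chain ms (fun k => Q (k + 1)) h.tail
    refine le_trans (le_of_eq ?_) (ltilt_mono hn.lip (F := fun _ => (0 : ℝ)) measurable_const hme
      (C := 1) (by simp) hb (cSq_nonneg ms _ j h.tail) m _ y)
    simp [ltilt_eq]

lemma chain_congr : ∀ (ms : List ℝ) {Q Q' : ℕ → ℝ},
    (∀ k < ms.length, Q (k + 1) - Q k = Q' (k + 1) - Q' k) →
      cPot ms Q = cPot ms Q' ∧ cSlope ms Q = cSlope ms Q' ∧ ∀ j, cSq ms Q j = cSq ms Q' j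
  | [], Q, Q', _ => ⟨rfl, rfl, fun j => by cases j <;> rfl⟩
  | m :: ms, Q, Q', h => by
    obtain ⟨h1, h2, h3⟩ := chain_congr ms (Q := fun k => Q (k + 1)) (Q' := fun k => Q' (k + 1))
      fun k hk => h (k + 1) (by simpa using hk)
    have h0 := h 0 (by simp)
    simp only [zero_add] at h0
    refine ⟨by simp only [cPot, h1, h0], by simp only [cSlope, h1, h2, h0], fun j => ?_⟩
    cases j with
    | zero => simp only [cSq_zero, cSlope, h1, h2, h0]
    | succ j => simp only [cSq, h1, h3 j, h0]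

/-- Slopes that grow on the half-line have growing squares. -/
lemma sq_le_sq_of_slope {u u' : ℝ → ℝ} (ho : ∀ y, u (-y) = -u y) (ho' : ∀ y, u' (-y) = -u' y)
    (h0 : ∀ y, 0 ≤ y → 0 ≤ u y) (h : ∀ y, 0 ≤ y → u y ≤ u' y) (y : ℝ) : u y ^ 2 ≤ u' y ^ 2 := by
  have e : ∀ (w : ℝ → ℝ), (∀ y, w (-y) = -w y) → w y ^ 2 = w |y| ^ 2 := fun w hw => by
    rcases abs_choice y with hy | hy <;> rw [hy]
    rw [hw, neg_sq]
  rw [e u ho, e u' ho']
  exact pow_le_pow_left₀ (h0 _ (abs_nonneg y)) (h _ (abs_nonneg y)) 2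

/-- Hypotheses of a move of the cumulative variance above level `i`. -/
structure Moved (ms : List ℝ) (i : ℕ) (Q Q' : ℕ → ℝ) : Prop where
  exps : UnitExps ms
  len : i + 1 < ms.length
  exp_le : ms.getD i 0 ≤ ms.getD (i + 1) 0
  eq : ∀ k, k ≠ i + 1 → Q' k = Q k
  low : Q i ≤ Q (i + 1)
  mid : Q (i + 1) ≤ Q' (i + 1)
  high : Q' (i + 1) ≤ Q (i + 2)

lemma Moved.inner {i : ℕ} {Q Q' : ℕ → ℝ} (h : Moved (m :: ms) (i + 1) Q Q') :
    Moved ms i (fun k => Q (k + 1)) fun k => Q' (k + 1) where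
  exps := h.exps.tail
  len := by simpa using h.len
  exp_le := by simpa using h.exp_le
  eq k hk := h.eq (k + 1) (by omega)
  low := h.low
  mid := h.mid
  high := h.high

/-- The first two levels of a moved chain in split form. -/
lemma moved_head {m m' : ℝ} {l : List ℝ} {Q Q' : ℕ → ℝ} (h : Moved (m :: m' :: l) 0 Q Q') :
    (fun k => Q' (k + 1 + 1)) = (fun k => Q (k + 1 + 1)) ∧ Q' 0 = Q 0 ∧ Q' 2 = Q 2 :=
  ⟨funext fun k => h.eq _ (by omega), h.eq 0 (by omega), h.eq 2 (by omega)⟩

/-- Raising one cumulative variance lowers slopes and the other averaged squared slopes. -/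
theorem chain_move : ∀ (ms : List ℝ) (i : ℕ) (Q Q' : ℕ → ℝ), Moved ms i Q Q' →
    (∀ y, 0 ≤ y → cSlope ms Q' y ≤ cSlope ms Q y) ∧
      ∀ j, j ≠ i + 1 → ∀ y, cSq ms Q' j y ≤ cSq ms Q j y := by
  intro ms i
  induction i generalizing ms with
  | zero =>
    intro Q Q' h
    match ms, h with
    | [], h => exact absurd h.len (by simp)
    | [_], h => exact absurd h.len (by simp)
    | m :: m' :: l, h =>
      obtain ⟨hQ, hQ0, hQ2⟩ := moved_head h
      obtain ⟨hm0, hm1⟩ := h.exps m (by simp)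
      obtain ⟨hn0, hn1⟩ := h.exps m' (by simp)
      have hmm : m ≤ m' := by simpa using h.exp_le
      have hl := nice_chain l (fun k => Q (k + 1 + 1)) h.exps.tail.tail
      set U₀ := cPot l fun k => Q (k + 1 + 1) with hU₀
      set u₀ := cSlope l fun k => Q (k + 1 + 1) with hu₀
      set a := Q 1 - Q 0 with ha
      set t := Q' 1 - Q 1 with ht
      set b := Q 2 - Q' 1 with hb
      have ha0 : 0 ≤ a := sub_nonneg.2 h.low
      have ht0 : 0 ≤ t := sub_nonneg.2 h.mid
      have hb0 : 0 ≤ b := sub_nonneg.2 h.high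
      have e1 : Q' 1 - Q' 0 = a + t := by rw [hQ0]; ring
      have e2 : Q' (1 + 1) - Q' (0 + 1) = b := by rw [hb, ← hQ2]
      have e3 : Q (1 + 1) - Q (0 + 1) = t + b := by rw [ht, hb]; ring
      set V := lstep m' b U₀
      set v := ltilt m' b U₀ u₀
      have hV : Nice V v := hl.step hn0 hn1 b
      have hA : Nice (lstep m t V) (ltilt m t V v) := hV.step hm0 hm1 t
      have hB : Nice (lstep m' t V) (ltilt m' t V v) := hV.step hn0 hn1 t
      have hD0 : EInc fun x => m' * V x - m * V x := by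
        intro x y hxy
        have := mul_le_mul_of_nonneg_left (hV.einc x y hxy) (sub_nonneg.2 hmm)
        linarith
      have hs1 : ∀ x, 0 ≤ x → ltilt m t V v x ≤ ltilt m' t V v x := fun x hx =>
        tilt_le_odd hV.lip hV.lip hV.evn hV.evn hD0 hV.meas hV.meas hV.bd hV.bd hV.odd hV.odd hV.mono
          (fun _ _ => le_rfl) t hx le_rfl
      have hD1 : EInc fun x => m * lstep m' t V x - m * lstep m t V x := by
        intro x y hxy
        have := mul_le_mul_of_nonneg_left (hA.einc_sub hB hs1 x y hxy) hm0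
        linarith
      have oldP : lstep m' (t + b) U₀ = lstep m' t V :=
        funext fun x => (lstep_merge hl.lip hn0 ht0 hb0 x).symm
      have newT : ∀ {F : ℝ → ℝ}, Measurable F → ∀ {C : ℝ}, (∀ z, |F z| ≤ C) →
          ltilt m (a + t) V F = ltilt m a (lstep m t V) (ltilt m t V F) := fun hF _ hC =>
        funext fun x => (ltilt_merge hV.lip hF hC ha0 ht0 m x).symm
      have oldT : ∀ {F : ℝ → ℝ}, Measurable F → ∀ {C : ℝ}, (∀ z, |F z| ≤ C) →
          ltilt m' (t + b) U₀ F = ltilt m' t V (ltilt m' b U₀ F) := fun hF _ hC =>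
        funext fun x => (ltilt_merge hl.lip hF hC ht0 hb0 m' x).symm
      have sN : cSlope (m :: m' :: l) Q' = ltilt m a (lstep m t V) (ltilt m t V v) := by
        simp only [cSlope, cPot, hQ, e2, ← hU₀, ← hu₀, e1]
        exact newT hV.meas hV.bd
      have sO : cSlope (m :: m' :: l) Q = ltilt m a (lstep m' t V) (ltilt m' t V v) := by
        simp only [cSlope, cPot, e3, ← hU₀, ← hu₀, ← ha, oldP]
        rw [oldT hl.meas hl.bd]
      have hslope : ∀ y, 0 ≤ y → cSlope (m :: m' :: l) Q' y ≤ cSlope (m :: m' :: l) Q y := fun y hy => by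
        rw [sN, sO]
        exact tilt_le_odd hA.lip hB.lip hA.evn hB.evn hD1 hA.meas hB.meas hA.bd hB.bd hA.odd hB.odd
          hA.mono hs1 a hy le_rfl
      refine ⟨hslope, fun j hj y => ?_⟩
      match j, hj with
      | 0, _ =>
        simp only [cSq_zero]
        exact sq_le_sq_of_slope (nice_chain _ Q' h.exps).odd (nice_chain _ Q h.exps).odd
          (fun x hx => (nice_chain _ Q' h.exps).nonneg hx) hslope y
      | 1, hj => exact absurd rfl hj
      | j + 2, _ =>
        obtain ⟨hhm, hhb, hhi⟩ := cSq_props l (fun k => Q (k + 1 + 1)) j h.exps.tail.tail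
        simp only [cSq, cPot, hQ, e2, ← hU₀, e1, e3, ← ha, oldP]
        set hh := cSq l (fun k => Q (k + 1 + 1)) j
        rw [newT (measurable_ltilt hl.lip hhm m' b) (fun z => abs_ltilt_le hl.lip hhb m' b z),
          oldT hhm hhb]
        set H := ltilt m' b U₀ hh
        have hHm : Measurable H := measurable_ltilt hl.lip hhm m' b
        have hHb : ∀ z, |H z| ≤ 1 := fun z => abs_ltilt_le hl.lip hhb m' b z
        have hHi : EInc H := fun p q hpq => tilt_le_even hl.lip hl.lip hl.evn hl.evn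
          (fun _ _ _ => by simp) hhm hhm hhb hhb hhi hhi.even (fun _ => le_rfl) b hpq
        have hin : ∀ {k : ℝ}, 0 ≤ k → EInc (ltilt k t V H) := fun {k} _ p q hpq =>
          tilt_le_even hV.lip hV.lip hV.evn hV.evn (fun _ _ _ => by simp) hHm hHm hHb hHb hHi hHi.even
            (fun _ => le_rfl) t hpq
        exact tilt_le_even hA.lip hB.lip hA.evn hB.evn hD1 (measurable_ltilt hV.lip hHm m t)
          (measurable_ltilt hV.lip hHm m' t) (fun z => abs_ltilt_le hV.lip hHb m t z)
          (fun z => abs_ltilt_le hV.lip hHb m' t z) (hin hm0) (hin hn0).even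
          (fun x => tilt_le_even hV.lip hV.lip hV.evn hV.evn hD0 hHm hHm hHb hHb hHi hHi.even
            (fun _ => le_rfl) t le_rfl) a le_rfl
  | succ i ih =>
    intro Q Q' h
    match ms, h with
    | [], h => exact absurd h.len (by simp)
    | m :: l, h =>
      obtain ⟨ihs, ihq⟩ := ih l _ _ h.inner
      obtain ⟨hm0, -⟩ := h.exps m (by simp)
      have hN := nice_chain l (fun k => Q' (k + 1)) h.exps.tail
      have hO := nice_chain l (fun k => Q (k + 1)) h.exps.tail
      have hD : EInc fun x => m * cPot l (fun k => Q (k + 1)) x - m * cPot l (fun k => Q' (k + 1)) x := by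
        intro x y hxy
        have := mul_le_mul_of_nonneg_left (hN.einc_sub hO ihs x y hxy) hm0
        linarith
      have e : Q' 1 - Q' 0 = Q 1 - Q 0 := by rw [h.eq 1 (by omega), h.eq 0 (by omega)]
      have hslope : ∀ y, 0 ≤ y → cSlope (m :: l) Q' y ≤ cSlope (m :: l) Q y := fun y hy => by
        simp only [cSlope, e]
        exact tilt_le_odd hN.lip hO.lip hN.evn hO.evn hD hN.meas hO.meas hN.bd hO.bd hN.odd hO.odd
          hN.mono ihs _ hy le_rfl
      refine ⟨hslope, fun j hj y => ?_⟩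
      match j, hj with
      | 0, _ =>
        simp only [cSq_zero]
        exact sq_le_sq_of_slope (nice_chain _ Q' h.exps).odd (nice_chain _ Q h.exps).odd
          (fun x hx => (nice_chain _ Q' h.exps).nonneg hx) hslope y
      | j + 1, hj =>
        obtain ⟨a1, a2, a3⟩ := cSq_props l (fun k => Q' (k + 1)) j h.exps.tail
        obtain ⟨b1, b2, b3⟩ := cSq_props l (fun k => Q (k + 1)) j h.exps.tail
        simp only [cSq, e]
        exact tilt_le_even hN.lip hO.lip hN.evn hO.evn hD a1 b1 a2 b2 a3 b3.even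
          (ihq j (by omega)) _ le_rfl

end Vale.Agent.P166F.Chain
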