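import Vale.Agent.P166N.Spin

/-!
One level of a nested spin entropy: exponents in `[0, 1]`, the slope as a tilted mean, and the
monotone dependence of tilted means of even and odd functions on the tilt and on the base point.
-/

namespace Vale.Agent.P166F.Chain

open MeasureTheory ProbabilityTheory
open Vale.Agent.P157 Vale.Agent.P166N

variable {U U' u u' F F' : ℝ → ℝ} {m m' s : ℝ}

/-- The log-moment of exponent `m`, the mean at exponent zero. -/
noncomputable def lmom (m : ℝ) (X : ℝ → ℝ) : ℝ :=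
  if m = 0 then ∫ z, X z ∂gaussianReal 0 1 else RSB.lexp (gaussianReal 0 1) m X

/-- One level of exponent `m` and variance `s`. -/
noncomputable def lstep (m s : ℝ) (U : ℝ → ℝ) (y : ℝ) : ℝ := lmom m fun z => U (y + Real.sqrt s * z)

/-- The tilted mean of one level. -/
noncomputable def ltilt (m s : ℝ) (U F : ℝ → ℝ) (y : ℝ) : ℝ :=
  RSB.tilt (gaussianReal 0 1) m (fun z => U (y + Real.sqrt s * z)) fun z => F (y + Real.sqrt s * z)

lemma ltilt_eq (m s : ℝ) (U F : ℝ → ℝ) (y : ℝ) :
    ltilt m s U F y = (∫ z, Real.exp (m * U (y + Real.sqrt s * z)) * F (y + Real.sqrt s * z)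
      ∂gaussianReal 0 1) / ∫ z, Real.exp (m * U (y + Real.sqrt s * z)) ∂gaussianReal 0 1 := by
  simp only [ltilt, RSB.tilt, smul_eq_mul, inv_mul_eq_div]

/-- An exponential of a Lipschitz function times a bounded function is integrable. -/
lemma int_exp_mul {G b : ℝ → ℝ} {K C : ℝ} (hG : RSB.Lip K G) (hb : Measurable b) (hC : ∀ z, |b z| ≤ C)
    (k c x : ℝ) : Integrable (fun z => Real.exp (k * G (x + c * z)) * b z) (gaussianReal 0 1) := by
  simpa [smul_eq_mul] using (wgt_lip hG k x c).integrable_smul (F := b) hb.aestronglyMeasurable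
    fun z => (Real.norm_eq_abs _).le.trans (hC z)

lemma wgt_step (hU : RSB.Lip 1 U) (m y s : ℝ) :
    RSB.Wgt (gaussianReal 0 1) m fun z => U (y + Real.sqrt s * z) := wgt_lip hU m y _

lemma int_step (hU : RSB.Lip 1 U) (hF : Measurable F) {C : ℝ} (hC : ∀ z, |F z| ≤ C) (m y s : ℝ) :
    Integrable (fun z => Real.exp (m * U (y + Real.sqrt s * z)) * F (y + Real.sqrt s * z))
      (gaussianReal 0 1) :=
  int_exp_mul hU (hF.comp (by fun_prop)) (fun z => hC _) m _ y

lemma abs_ltilt_le (hU : RSB.Lip 1 U) {C : ℝ} (hC : ∀ z, |F z| ≤ C) (m s y : ℝ) :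
    |ltilt m s U F y| ≤ C := by
  have h := RSB.norm_tilt_le (wgt_step hU m y s) (F := fun z => F (y + Real.sqrt s * z))
    fun z => (Real.norm_eq_abs _).le.trans (hC _)
  simpa [ltilt, Real.norm_eq_abs] using h

lemma measurable_ltilt (hU : RSB.Lip 1 U) (hF : Measurable F) (m s : ℝ) :
    Measurable (ltilt m s U F) :=
  RSB.measurable_tilt (X := fun y z => U (y + Real.sqrt s * z))
    (F := fun y z => F (y + Real.sqrt s * z))
    (hU.meas.comp (measurable_fst.add (measurable_snd.const_mul _)))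
    (hF.comp (measurable_fst.add (measurable_snd.const_mul _))) m

lemma ltilt_mono (hU : RSB.Lip 1 U) (hF : Measurable F) (hF' : Measurable F') {C : ℝ}
    (hC : ∀ z, |F z| ≤ C) (hC' : ∀ z, |F' z| ≤ C) (h : ∀ z, F z ≤ F' z) (m s y : ℝ) :
    ltilt m s U F y ≤ ltilt m s U F' y :=
  RSB.tilt_mono (wgt_step hU m y s) (int_step hU hF hC m y s) (int_step hU hF' hC' m y s)
    fun z => h _

/-! ### Weighted means -/

/-- Weighted means of monotone functions of the absolute value grow with the likelihood ratio. -/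
lemma wmean_mono {μ : Measure ℝ} [IsProbabilityMeasure μ] {P P' b b' : ℝ → ℝ}
    (hP : Integrable P μ) (hP' : Integrable P' μ) (hPb : Integrable (fun z => P z * b z) μ)
    (hPb' : Integrable (fun z => P' z * b' z) μ) (hPb0 : Integrable (fun z => P' z * b z) μ)
    (hpos : 0 < ∫ z, P z ∂μ) (hpos' : 0 < ∫ z, P' z ∂μ)
    (hP0 : ∀ z, 0 ≤ P' z) (hle : ∀ z, b z ≤ b' z)
    (hmono : ∀ z w, |z| ≤ |w| → P' z * P w ≤ P' w * P z) (hb : EInc b) :
    (∫ z, P z * b z ∂μ) / ∫ z, P z ∂μ ≤ (∫ z, P' z * b' z ∂μ) / ∫ z, P' z ∂μ := by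
  have hkey : ∀ z w, 0 ≤ (P' z * P w - P' w * P z) * (b z - b w) := fun z w => by
    rcases le_total |z| |w| with h | h
    · exact mul_nonneg_of_nonpos_of_nonpos (sub_nonpos.2 (hmono z w h)) (sub_nonpos.2 (hb z w h))
    · exact mul_nonneg (sub_nonneg.2 (hmono w z h)) (sub_nonneg.2 (hb w z h))
  set A := ∫ z, P z ∂μ
  set A' := ∫ z, P' z ∂μ
  set B := ∫ z, P z * b z ∂μ
  set B' := ∫ z, P' z * b z ∂μ
  have h1 : ∀ z, 0 ≤ P' z * b z * A - P' z * B - P z * b z * A' + P z * B' := fun z => by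
    have h := integral_nonneg (μ := μ) (f := fun w => (P' z * P w - P' w * P z) * (b z - b w))
      fun w => hkey z w
    have e : ∀ w, (P' z * P w - P' w * P z) * (b z - b w) =
        P' z * b z * P w - P' z * (P w * b w) - P z * b z * P' w + P z * (P' w * b w) := fun w => by
      ring
    simp only [e] at h
    have i1 := hP.const_mul (P' z * b z)
    have i2 := hPb.const_mul (P' z)
    have i3 := hP'.const_mul (P z * b z)
    rw [integral_add ((i1.sub' i2).sub' i3) (hPb0.const_mul _), integral_sub (i1.sub' i2) i3,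
      integral_sub i1 i2, integral_const_mul, integral_const_mul, integral_const_mul,
      integral_const_mul] at h
    exact h
  have h2 := integral_nonneg (μ := μ) (f := fun z => P' z * b z * A - P' z * B - P z * b z * A' + P z * B') h1
  have i1 := hPb0.mul_const A
  have i2 := hP'.mul_const B
  have i3 := hPb.mul_const A'
  rw [integral_add ((i1.sub' i2).sub' i3) (hP.mul_const B'), integral_sub (i1.sub' i2) i3,
    integral_sub i1 i2, integral_mul_const, integral_mul_const, integral_mul_const,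
    integral_mul_const] at h2
  have h3 : B' ≤ ∫ z, P' z * b' z ∂μ :=
    integral_mono hPb0 hPb' fun z => mul_le_mul_of_nonneg_left (hle z) (hP0 z)
  rw [div_le_div_iff₀ hpos hpos']
  nlinarith [mul_le_mul_of_nonneg_right h3 hpos.le]

/-- The ratio of hyperbolic cosines increases. -/
lemma cosh_ratio {t t' z w : ℝ} (ht : |t| ≤ |t'|) (hz : |z| ≤ |w|) :
    Real.cosh (t' * z) * Real.cosh (t * w) ≤ Real.cosh (t' * w) * Real.cosh (t * z) := by
  have e : ∀ a b : ℝ, Real.cosh (a * b) = Real.cosh (|a| * |b|) := fun a b => by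
    rw [← abs_mul, Real.cosh_abs]
  rw [e t' z, e t w, e t' w, e t z]
  set a := |t|
  set a' := |t'|
  set x := |z|
  set y := |w|
  have ha : 0 ≤ a := abs_nonneg _
  have hx : 0 ≤ x := abs_nonneg _
  have key : ∀ p q : ℝ, Real.cosh p * Real.cosh q = (Real.cosh (p + q) + Real.cosh (p - q)) / 2 :=
    fun p q => by rw [Real.cosh_add, Real.cosh_sub]; ring
  rw [key, key]
  have hp1 : 0 ≤ (a' - a) * (y - x) := mul_nonneg (sub_nonneg.2 ht) (sub_nonneg.2 hz)
  have hp2 : 0 ≤ (a' + a) * (y - x) := mul_nonneg (by linarith) (sub_nonneg.2 hz)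
  have hp3 : 0 ≤ (a' - a) * (y + x) := mul_nonneg (sub_nonneg.2 ht) (by linarith)
  have h1 : Real.cosh (a' * x + a * y) ≤ Real.cosh (a' * y + a * x) := by
    rw [Real.cosh_le_cosh, abs_of_nonneg (by nlinarith), abs_of_nonneg (by nlinarith)]
    nlinarith
  have h2 : Real.cosh (a' * x - a * y) ≤ Real.cosh (a' * y - a * x) := by
    rw [Real.cosh_le_cosh, abs_of_nonneg (a := a' * y - a * x) (by nlinarith), abs_le]
    constructor <;> nlinarith
  linarith

lemma tanh_mono {x y : ℝ} (h : x ≤ y) : Real.tanh x ≤ Real.tanh y := by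
  rw [Real.tanh_eq_sinh_div_cosh, Real.tanh_eq_sinh_div_cosh,
    div_le_div_iff₀ (Real.cosh_pos _) (Real.cosh_pos _)]
  have h1 := Real.sinh_nonneg_iff.2 (sub_nonneg.2 h)
  rw [Real.sinh_sub] at h1
  linarith

lemma measurable_tanh : Measurable Real.tanh := by
  rw [show Real.tanh = fun x => Real.sinh x / Real.cosh x from funext Real.tanh_eq_sinh_div_cosh]
  fun_prop

lemma tanh_nonneg' {x : ℝ} (h : 0 ≤ x) : 0 ≤ Real.tanh x := by
  simpa using tanh_mono h

/-! ### Even weights on a centred Gaussian -/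

/-- The even weight seen from the base point `t`. -/
noncomputable def cw (m c t : ℝ) (U : ℝ → ℝ) (z : ℝ) : ℝ :=
  Real.exp (m * U (c * z)) * Real.cosh (t * z)

lemma int_exp_lin (hU : RSB.Lip 1 U) (m c t : ℝ) {b : ℝ → ℝ} (hb : Measurable b) {C : ℝ}
    (hC : ∀ z, |b z| ≤ C) :
    Integrable (fun z => Real.exp (m * U (c * z) + t * z) * b z) (gaussianReal 0 1) := by
  have hG : RSB.Lip (|m| * |c| + |t|) fun x => m * U (c * x) + t * x := by
    refine ⟨((hU.meas.comp (measurable_const_mul c)).const_mul m).add (measurable_const_mul t),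
      by positivity, fun x y => ?_⟩
    have h := hU.lip (c * x) (c * y)
    rw [Real.norm_eq_abs, one_mul, ← mul_add] at h
    rw [Real.norm_eq_abs, show m * U (c * (x + y)) + t * (x + y) - (m * U (c * x) + t * x) =
      m * (U (c * (x + y)) - U (c * x)) + t * y by ring]
    refine (abs_add_le _ _).trans ?_
    rw [abs_mul, abs_mul, add_mul, mul_assoc, ← abs_mul c]
    gcongr
  simpa using int_exp_mul hG hb hC 1 1 0

lemma cw_mul_eq (m c t : ℝ) (U b : ℝ → ℝ) (z : ℝ) : cw m c t U z * b z =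
    (Real.exp (m * U (c * z) + t * z) * b z + Real.exp (m * U (c * z) + -t * z) * b z) / 2 := by
  rw [cw, Real.cosh_eq, Real.exp_add, Real.exp_add, neg_mul]
  ring

lemma int_cw (hU : RSB.Lip 1 U) (m c t : ℝ) {b : ℝ → ℝ} (hb : Measurable b) {C : ℝ}
    (hC : ∀ z, |b z| ≤ C) : Integrable (fun z => cw m c t U z * b z) (gaussianReal 0 1) := by
  simp only [cw_mul_eq]
  exact ((int_exp_lin hU m c t hb hC).add (int_exp_lin hU m c (-t) hb hC)).div_const 2

lemma int_cw_one (hU : RSB.Lip 1 U) (m c t : ℝ) :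
    Integrable (cw m c t U) (gaussianReal 0 1) := by
  simpa using int_cw hU m c t (b := fun _ => 1) measurable_const (C := 1) (by simp)

lemma cw_pos (m c t : ℝ) (U : ℝ → ℝ) (z : ℝ) : 0 < cw m c t U z :=
  mul_pos (Real.exp_pos _) (Real.cosh_pos _)

lemma cw_int_pos (hU : RSB.Lip 1 U) (m c t : ℝ) : 0 < ∫ z, cw m c t U z ∂gaussianReal 0 1 :=
  (integral_pos_iff_support_of_nonneg (fun z => (cw_pos m c t U z).le) (int_cw_one hU m c t)).2
    (by
      rw [show Function.support (cw m c t U) = Set.univ from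
        Set.eq_univ_of_forall fun z => (cw_pos m c t U z).ne']
      simp)

/-- A Gaussian average from a base point in terms of a centred one. -/
lemma shift_eq (G : ℝ → ℝ) {c : ℝ} (hc : c ≠ 0) (y : ℝ) :
    ∫ z, G (y + c * z) ∂gaussianReal 0 1 =
      Real.exp (-((y / c) ^ 2 / 2)) * ∫ z, Real.exp (y / c * z) * G (c * z) ∂gaussianReal 0 1 := by
  rw [Low.gauss_tilt, ← mul_assoc, ← Real.exp_add, neg_add_cancel, Real.exp_zero, one_mul]
  refine integral_congr_ae (Filter.Eventually.of_forall fun z => ?_)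
  show G (y + c * z) = G (c * (z + y / c))
  rw [mul_add, mul_div_cancel₀ _ hc, add_comm]

/-- Weighted averages of even and odd functions from a base point. -/
lemma fold_int (hU : RSB.Lip 1 U) (hUe : ∀ x, U (-x) = U x) (hF : Measurable F) {C : ℝ}
    (hC : ∀ z, |F z| ≤ C) {c : ℝ} (hc : c ≠ 0) (m y : ℝ) :
    ((∀ x, F (-x) = F x) → ∫ z, Real.exp (m * U (y + c * z)) * F (y + c * z) ∂gaussianReal 0 1 =
        Real.exp (-((y / c) ^ 2 / 2)) * ∫ z, cw m c (y / c) U z * F (c * z) ∂gaussianReal 0 1) ∧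
      ((∀ x, F (-x) = -F x) → ∫ z, Real.exp (m * U (y + c * z)) * F (y + c * z) ∂gaussianReal 0 1 =
        Real.exp (-((y / c) ^ 2 / 2)) *
          ∫ z, cw m c (y / c) U z * (F (c * z) * Real.tanh (y / c * z)) ∂gaussianReal 0 1) := by
  set t := y / c with ht
  have hFc : Measurable fun z => F (c * z) := hF.comp (measurable_const_mul c)
  have i1 := int_exp_lin hU m c t hFc fun z => hC _
  have i2 := int_exp_lin hU m c (-t) hFc fun z => hC _
  have e : ∫ z, Real.exp (m * U (y + c * z)) * F (y + c * z) ∂gaussianReal 0 1 =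
      Real.exp (-(t ^ 2 / 2)) * ∫ z, Real.exp (m * U (c * z) + t * z) * F (c * z) ∂gaussianReal 0 1 := by
    rw [shift_eq (fun x => Real.exp (m * U x) * F x) hc y, ← ht]
    simp only [Real.exp_add]
    congr 1
    exact integral_congr_ae (Filter.Eventually.of_forall fun z => by ring)
  have r : ∀ σ : ℝ, (∀ x, F (-x) = σ * F x) →
      ∫ z, Real.exp (m * U (c * z) + t * z) * F (c * z) ∂gaussianReal 0 1 =
        σ * ∫ z, Real.exp (m * U (c * z) + -t * z) * F (c * z) ∂gaussianReal 0 1 := fun σ hσ => by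
    rw [← integral_gauss_neg, ← integral_const_mul]
    refine integral_congr_ae (Filter.Eventually.of_forall fun z => ?_)
    simp only [mul_neg, hUe, hσ, neg_mul]
    ring
  constructor <;> intro hp <;> rw [e] <;> congr 1
  · have hr := r 1 fun x => by rw [hp, one_mul]
    have e2 : ∀ z, cw m c t U z * F (c * z) = _ := cw_mul_eq m c t U fun z => F (c * z)
    simp only [e2, integral_div]
    rw [integral_add i1 i2, hr]
    ring
  · have hr := r (-1) fun x => by rw [hp, neg_one_mul]
    have e2 : ∀ z, cw m c t U z * (F (c * z) * Real.tanh (t * z)) =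
        (Real.exp (m * U (c * z) + t * z) * F (c * z) -
          Real.exp (m * U (c * z) + -t * z) * F (c * z)) / 2 := fun z => by
      rw [cw, Real.tanh_eq_sinh_div_cosh, Real.sinh_eq, Real.exp_add, Real.exp_add, neg_mul]
      field_simp [(Real.cosh_pos (t * z)).ne']
    simp only [e2, integral_div]
    rw [integral_sub i1 i2, hr]
    ring

/-- Tilted means of even functions from a base point. -/
lemma ltilt_even (hU : RSB.Lip 1 U) (hUe : ∀ x, U (-x) = U x) (hF : Measurable F) {C : ℝ}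
    (hC : ∀ z, |F z| ≤ C) (hFe : ∀ x, F (-x) = F x) (hs : 0 < s) (m y : ℝ) :
    ltilt m s U F y = (∫ z, cw m (Real.sqrt s) (y / Real.sqrt s) U z * F (Real.sqrt s * z)
      ∂gaussianReal 0 1) / ∫ z, cw m (Real.sqrt s) (y / Real.sqrt s) U z ∂gaussianReal 0 1 := by
  have hc : Real.sqrt s ≠ 0 := (Real.sqrt_pos.2 hs).ne'
  have h1 := (fold_int hU hUe hF hC hc m y).1 hFe
  have h2 := (fold_int hU hUe (F := fun _ => (1 : ℝ)) measurable_const (C := 1) (by simp) hc m y).1
    fun _ => rfl
  simp only [mul_one] at h2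
  rw [ltilt_eq, h1, h2, mul_div_mul_left _ _ (Real.exp_pos _).ne']

/-- Tilted means of odd functions from a base point. -/
lemma ltilt_odd (hU : RSB.Lip 1 U) (hUe : ∀ x, U (-x) = U x) (hF : Measurable F) {C : ℝ}
    (hC : ∀ z, |F z| ≤ C) (hFo : ∀ x, F (-x) = -F x) (hs : 0 < s) (m y : ℝ) :
    ltilt m s U F y = (∫ z, cw m (Real.sqrt s) (y / Real.sqrt s) U z *
      (F (Real.sqrt s * z) * Real.tanh (y / Real.sqrt s * z)) ∂gaussianReal 0 1) /
        ∫ z, cw m (Real.sqrt s) (y / Real.sqrt s) U z ∂gaussianReal 0 1 := by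
  have hc : Real.sqrt s ≠ 0 := (Real.sqrt_pos.2 hs).ne'
  have h1 := (fold_int hU hUe hF hC hc m y).2 hFo
  have h2 := (fold_int hU hUe (F := fun _ => (1 : ℝ)) measurable_const (C := 1) (by simp) hc m y).1
    fun _ => rfl
  simp only [mul_one] at h2
  rw [ltilt_eq, h1, h2, mul_div_mul_left _ _ (Real.exp_pos _).ne']

lemma cw_ratio (hD : EInc fun x => m' * U' x - m * U x) {t t' c : ℝ} (ht : |t| ≤ |t'|) (z w : ℝ)
    (h : |z| ≤ |w|) : cw m' c t' U' z * cw m c t U w ≤ cw m' c t' U' w * cw m c t U z := by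
  have h1 := hD (c * z) (c * w) (by
    rw [abs_mul, abs_mul]; exact mul_le_mul_of_nonneg_left h (abs_nonneg c))
  have h2 := cosh_ratio ht h
  have h3 : Real.exp (m' * U' (c * z)) * Real.exp (m * U (c * w)) ≤
      Real.exp (m' * U' (c * w)) * Real.exp (m * U (c * z)) := by
    rw [← Real.exp_add, ← Real.exp_add, Real.exp_le_exp]; linarith
  calc cw m' c t' U' z * cw m c t U w
      = (Real.exp (m' * U' (c * z)) * Real.exp (m * U (c * w))) *
          (Real.cosh (t' * z) * Real.cosh (t * w)) := by rw [cw, cw]; ring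
    _ ≤ (Real.exp (m' * U' (c * w)) * Real.exp (m * U (c * z))) *
          (Real.cosh (t' * w) * Real.cosh (t * z)) :=
        mul_le_mul h3 h2 (by positivity) (by positivity)
    _ = _ := by rw [cw, cw]; ring

/-- Tilted means of even functions grow with the tilt and with the base point. -/
theorem tilt_le_even (hU : RSB.Lip 1 U) (hU' : RSB.Lip 1 U') (hUe : ∀ x, U (-x) = U x)
    (hUe' : ∀ x, U' (-x) = U' x) (hD : EInc fun x => m' * U' x - m * U x) (hF : Measurable F)
    (hF' : Measurable F') {C : ℝ} (hC : ∀ z, |F z| ≤ C) (hC' : ∀ z, |F' z| ≤ C) (hFi : EInc F)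
    (hFe' : ∀ x, F' (-x) = F' x) (hle : ∀ x, F x ≤ F' x) (s : ℝ) {y y' : ℝ} (hy : |y| ≤ |y'|) :
    ltilt m s U F y ≤ ltilt m' s U' F' y' := by
  by_cases hs : 0 < s
  · rw [ltilt_even hU hUe hF hC hFi.even hs, ltilt_even hU' hUe' hF' hC' hFe' hs]
    set c := Real.sqrt s with hcdef
    have hc0 : 0 < c := Real.sqrt_pos.2 hs
    have ht : |y / c| ≤ |y' / c| := by
      rw [abs_div, abs_div]; exact div_le_div_of_nonneg_right hy (abs_nonneg _)
    have hm1 : Measurable fun z => F (c * z) := hF.comp (measurable_const_mul c)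
    have hm2 : Measurable fun z => F' (c * z) := hF'.comp (measurable_const_mul c)
    refine wmean_mono (int_cw_one hU m c _) (int_cw_one hU' m' c _) (int_cw hU m c _ hm1 fun z => hC _)
      (int_cw hU' m' c _ hm2 fun z => hC' _) (int_cw hU' m' c _ hm1 fun z => hC _)
      (cw_int_pos hU m c _) (cw_int_pos hU' m' c _) (fun z => (cw_pos m' c _ U' z).le) (fun z => hle _)
      (cw_ratio hD ht) fun z w h => hFi _ _ ?_
    rw [abs_mul, abs_mul]
    exact mul_le_mul_of_nonneg_left h (abs_nonneg c)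
  · have e : ∀ (k : ℝ) (W G : ℝ → ℝ) x, RSB.Lip 1 W → ltilt k s W G x = G x := fun k W G x hW => by
      have hw := (wgt_lip hW k x 0).pos
      simp only [zero_mul, add_zero] at hw
      simp only [ltilt_eq, Real.sqrt_eq_zero'.2 (not_lt.1 hs), zero_mul, add_zero, integral_const,
        probReal_univ, one_smul]
      exact mul_div_cancel_left₀ _ (Real.exp_pos _).ne'
    rw [e m U F y hU, e m' U' F' y' hU']
    exact (hFi y y' hy).trans (hle y')

/-- Tilted means of odd increasing functions grow with the tilt and with the base point. -/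
theorem tilt_le_odd (hU : RSB.Lip 1 U) (hU' : RSB.Lip 1 U') (hUe : ∀ x, U (-x) = U x)
    (hUe' : ∀ x, U' (-x) = U' x) (hD : EInc fun x => m' * U' x - m * U x) (hF : Measurable F)
    (hF' : Measurable F') {C : ℝ} (hC : ∀ z, |F z| ≤ C) (hC' : ∀ z, |F' z| ≤ C)
    (hFo : ∀ x, F (-x) = -F x) (hFo' : ∀ x, F' (-x) = -F' x) (hFm : Monotone F)
    (hle : ∀ x, 0 ≤ x → F x ≤ F' x) (s : ℝ) {y y' : ℝ} (h0 : 0 ≤ y) (hy : y ≤ y') :
    ltilt m s U F y ≤ ltilt m' s U' F' y' := by
  by_cases hs : 0 < s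
  · rw [ltilt_odd hU hUe hF hC hFo hs, ltilt_odd hU' hUe' hF' hC' hFo' hs]
    set c := Real.sqrt s with hcdef
    have hc0 : 0 < c := Real.sqrt_pos.2 hs
    set t := y / c with htdef
    set t' := y' / c with htdef'
    have ht0 : 0 ≤ t := div_nonneg h0 hc0.le
    have htt : t ≤ t' := div_le_div_of_nonneg_right hy hc0.le
    have hF0 : 0 = F 0 := by have := hFo 0; rw [neg_zero] at this; linarith
    have hFn : ∀ x, 0 ≤ x → 0 ≤ F x := fun x hx => hF0.le.trans (hFm hx)
    have hbd : ∀ (G : ℝ → ℝ), (∀ z, |G z| ≤ C) → ∀ a z, |G (c * z) * Real.tanh (a * z)| ≤ C :=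
      fun G hG a z => by
        rw [abs_mul]
        exact le_trans (mul_le_of_le_one_right (abs_nonneg _) (Real.abs_tanh_lt_one _).le) (hG _)
    have hfold : ∀ (G : ℝ → ℝ), (∀ x, G (-x) = -G x) → ∀ a z,
        G (c * z) * Real.tanh (a * z) = G (c * |z|) * Real.tanh (a * |z|) := fun G hG a z => by
      rcases abs_choice z with h | h <;> rw [h]
      rw [mul_neg, mul_neg, hG, Real.tanh_neg, neg_mul_neg]
    have hm1 : Measurable fun z => F (c * z) * Real.tanh (t * z) :=
      (hF.comp (measurable_const_mul c)).mul (measurable_tanh.comp (measurable_const_mul t))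
    have hm2 : Measurable fun z => F' (c * z) * Real.tanh (t' * z) :=
      (hF'.comp (measurable_const_mul c)).mul (measurable_tanh.comp (measurable_const_mul t'))
    refine wmean_mono (int_cw_one hU m c _) (int_cw_one hU' m' c _)
      (int_cw hU m c _ hm1 (hbd F hC _)) (int_cw hU' m' c _ hm2 (hbd F' hC' _))
      (int_cw hU' m' c _ hm1 (hbd F hC _)) (cw_int_pos hU m c _) (cw_int_pos hU' m' c _)
      (fun z => (cw_pos m' c _ U' z).le) (fun z => ?_)
      (cw_ratio hD (by rw [abs_of_nonneg ht0, abs_of_nonneg (ht0.trans htt)]; exact htt))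
      fun z w h => ?_
    · rw [hfold F hFo, hfold F' hFo']
      have ha : 0 ≤ c * |z| := by positivity
      refine mul_le_mul (hle _ ha) (tanh_mono (mul_le_mul_of_nonneg_right htt (abs_nonneg _)))
        (tanh_nonneg' (by positivity)) ((hFn _ ha).trans (hle _ ha))
    · show F (c * z) * Real.tanh (t * z) ≤ F (c * w) * Real.tanh (t * w)
      rw [hfold F hFo t z, hfold F hFo t w]
      exact mul_le_mul (hFm (mul_le_mul_of_nonneg_left h hc0.le))
        (tanh_mono (mul_le_mul_of_nonneg_left h ht0)) (tanh_nonneg' (by positivity))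
        (hFn _ (by positivity))
  · have e : ∀ (k : ℝ) (W G : ℝ → ℝ) x, ltilt k s W G x = G x := fun k W G x => by
      simp only [ltilt_eq, Real.sqrt_eq_zero'.2 (not_lt.1 hs), zero_mul, add_zero, integral_const,
        probReal_univ, one_smul]
      exact mul_div_cancel_left₀ _ (Real.exp_pos _).ne'
    rw [e, e]
    exact (hFm hy).trans (hle y' (h0.trans hy))

end Vale.Agent.P166F.Chain
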